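import Vale.Agent.P065.R2.H841.Up

/-!
# P065: an explicit `(k - 1)`-edge (helper841)
-/

set_option autoImplicit false

namespace Vale.Agent.P065.R2.H841

open Finset Vale.Agent.P065.UB Vale.Agent.P065 Vale.Agent.P065.U.H792.Trans

open Classical in
theorem par_mem {k : ℕ} (hk : 1 ≤ k) :
    (par 0, par k) ∈ Ed ((range (k + 1)).image par) (k - 1) := by
  have hk0 : (0 : ℝ) < k := by exact_mod_cast hk
  refine mem_Ed.2 ⟨mem_image_of_mem _ (by simp), mem_image_of_mem _ (by simp), ?_, ?_⟩
  · show ((0 : ℕ) : ℝ) < (k : ℝ)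
    simpa using hk0
  · have hs : sl (par 0) (par k) = k := by
      unfold sl par
      simp only [Nat.cast_zero, ne_eq, OfNat.ofNat_ne_zero, not_false_eq_true, zero_pow, sub_zero]
      rw [pow_two, mul_div_assoc, div_self hk0.ne', mul_one]
    unfold g0
    simp only
    rw [hs]
    have e1 : ({u ∈ (range (k + 1)).image par | ht (k : ℝ) u < ht (k : ℝ) (par 0)} :
        Finset Pt) = (Finset.Ioo 0 k).image par := by
      ext u
      simp only [mem_filter, mem_image, mem_range, mem_Ioo]
      constructor
      · rintro ⟨⟨i, hi, rfl⟩, h⟩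
        rw [ht_par, ht_par] at h
        simp only [Nat.cast_zero, zero_mul] at h
        have h0 : i ≠ 0 := by
          rintro rfl
          simp at h
        have h1 : i ≠ k := by
          rintro rfl
          simp at h
        exact ⟨i, ⟨by omega, by omega⟩, rfl⟩
      · rintro ⟨i, ⟨h1, h2⟩, rfl⟩
        refine ⟨⟨i, by omega, rfl⟩, ?_⟩
        rw [ht_par, ht_par]
        simp only [Nat.cast_zero, zero_mul]
        have a1 : (0 : ℝ) < i := by exact_mod_cast h1
        have a2 : (i : ℝ) < k := by exact_mod_cast h2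
        exact mul_neg_of_pos_of_neg a1 (by linarith)
    rw [e1, card_image_of_injective _ par_inj, Nat.card_Ioo]
    omega

end Vale.Agent.P065.R2.H841
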